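import Vale.Agent.P281.H511.U.SpecU

/-!
# P281, project T-U (helper125): block U1d, nonvanishing of the generalized Wronskian
-/

open Vale.Agent.P281.H713 hiding brk wd KK tcomp nk tm
open Vale.Agent.P281.H511.U
open scoped Topology ContDiff
open Set Filter Module Metric

namespace Vale.Agent.P281.H125.U

section Br

variable {d : ℕ} {W : Type*} [NormedAddCommGroup W] [NormedSpace ℂ W]

theorem contDiffAt_brk {ε : Fin d → W} {A : Fin (d + 1) → W → ℂ} {p : W}
    (hA : ∀ i, ContDiffAt ℂ ω (A i) p) (w : ℂ) (j : Fin (d + 1)) {g : W → ℂ}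
    (hg : ContDiffAt ℂ ω g p) : ContDiffAt ℂ ω (brk ε A w j g) p := by
  refine contDiffAt_det fun i k => ?_
  by_cases hij : i = j
  · subst hij
    simp only [Matrix.updateRow_self]
    exact contDiffAt_jr hg k
  · simp only [Matrix.updateRow_ne hij, Matrix.of_apply]
    exact contDiffAt_jr (hA i) k

theorem contDiffAt_wd {ε : Fin d → W} {A : Fin (d + 1) → W → ℂ} {p : W}
    (hA : ∀ i, ContDiffAt ℂ ω (A i) p) {g : W → ℂ} (hg : ContDiffAt ℂ ω g p)
    (l : List (Fin (d + 1))) : ContDiffAt ℂ ω (wd ε A l g) p := by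
  induction l with
  | nil => exact hg
  | cons j l ih => exact contDiffAt_brk hA _ j ih

/-- linearity -/
theorem wd_sum {ε : Fin d → W} {A : Fin (d + 1) → W → ℂ} {p : W}
    (hA : ∀ i, ContDiffAt ℂ ω (A i) p) {ι : Type*} (s : Finset ι) (c : ι → ℂ) {g : ι → W → ℂ}
    (hg : ∀ i ∈ s, ContDiffAt ℂ ω (g i) p) (l : List (Fin (d + 1))) :
    wd ε A l (fun u => ∑ i ∈ s, c i * g i u) =ᶠ[𝓝 p] fun u => ∑ i ∈ s, c i * wd ε A l (g i) u := by
  have hn : (ω : WithTop ℕ∞) ≠ 0 := by simp
  induction l with
  | nil => exact Eventually.of_forall fun u => rfl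
  | cons j l ih =>
    have hw : ∀ᶠ u in 𝓝 p, ∀ i ∈ s, ContDiffAt ℂ ω (wd ε A l (g i)) u :=
      (Finset.eventually_all s).2 fun i hi => (contDiffAt_wd hA (hg i hi) l).eventually (by simp)
    filter_upwards [eventually_eventually_nhds.2 ih, hw] with u h1 h2
    show brk ε A _ j (wd ε A l fun u => ∑ i ∈ s, c i * g i u) u =
      ∑ i ∈ s, c i * brk ε A _ j (wd ε A l (g i)) u
    unfold brk
    rw [jr_congr h1]
    simp only [← Matrix.cramer_transpose_apply]
    have h3 : ∀ w : ℂ, jr ε w (fun u => ∑ i ∈ s, c i * wd ε A l (g i) u) u =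
        ∑ i ∈ s, c i • jr ε w (wd ε A l (g i)) u := by
      intro w
      have h4 : HasFDerivAt (fun u => ∑ i ∈ s, c i * wd ε A l (g i) u)
          (∑ i ∈ s, c i • fderiv ℂ (wd ε A l (g i)) u) u :=
        HasFDerivAt.fun_sum fun i hi => ((h2 i hi).differentiableAt hn).hasFDerivAt.const_mul _
      funext k
      rw [Finset.sum_apply]
      unfold jr
      refine Fin.cases ?_ (fun b => ?_) k
      · simp only [Fin.cons_zero, Pi.smul_apply, smul_eq_mul, Finset.mul_sum]
        exact Finset.sum_congr rfl fun i _ => by ring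
      · simp only [Fin.cons_succ, Pi.smul_apply, smul_eq_mul]
        rw [h4.fderiv, sum_apply]
        rfl
    rw [h3, map_sum, Finset.sum_apply]
    refine Finset.sum_congr rfl fun i _ => ?_
    rw [map_smul]
    rfl

theorem brk_expand (A : Fin (d + 1) → (Fin d → ℂ) → ℂ) (w : ℂ) (g : (Fin d → ℂ) → ℂ)
    (u : Fin d → ℂ) (k : Fin (d + 1)) :
    (Matrix.of fun i => jr bs (om d i : ℂ) (A i) u).det * jr bs w g u k =
      ∑ j, jr bs (om d j : ℂ) (A j) u k * brk bs A w j g u := by
  have h1 := Matrix.mulVec_cramer (Matrix.of fun i => jr bs (om d i : ℂ) (A i) u).transpose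
    (jr bs w g u)
  have h2 := congrFun h1 k
  rw [Matrix.det_transpose, Pi.smul_apply, smul_eq_mul] at h2
  rw [← h2]
  simp only [Matrix.mulVec, dotProduct, Matrix.transpose_apply, Matrix.of_apply]
  refine Finset.sum_congr rfl fun j _ => ?_
  rw [Matrix.cramer_transpose_apply]
  rfl

/-- a function all of whose brackets vanish at a point is zero. -/
theorem wd_zero {A : Fin (d + 1) → (Fin d → ℂ) → ℂ} {g : (Fin d → ℂ) → ℂ} {v : Fin d → ℂ}
    (hA : ∀ i, ContDiffAt ℂ ω (A i) v)
    (hdet : (Matrix.of fun i => jr bs (om d i : ℂ) (A i) v).det ≠ 0)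
    (hg : ContDiffAt ℂ ω g v) (h0 : ∀ l, wd bs A l g v = 0) : ∀ᶠ u in 𝓝 v, g u = 0 := by
  have hn : (ω : WithTop ℕ∞) ≠ 0 := by simp
  -- one variable
  have key : ∀ w : Fin d → ℂ, ∀ᶠ s in 𝓝 (0 : ℂ), g (v + s • w) = 0 := by
    intro w
    set γ : ℂ → Fin d → ℂ := fun s => v + s • w with hγ
    have hγ0 : γ 0 = v := by simp [hγ]
    have hγc : ∀ s, ContDiffAt ℂ ω γ s := fun s =>
      contDiffAt_const.add (contDiffAt_id.smul contDiffAt_const)
    have hγd : ∀ s, HasDerivAt γ w s := by
      intro s
      have := ((hasDerivAt_id s).smul_const w).const_add v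
      rw [one_smul] at this
      exact this
    have hγt : Tendsto γ (𝓝 0) (𝓝 v) := by
      have := (hγc 0).continuousAt.tendsto
      rwa [hγ0] at this
    set D : (Fin d → ℂ) → ℂ := fun u => (Matrix.of fun i => jr bs (om d i : ℂ) (A i) u).det with hD
    have hDc : ContDiffAt ℂ ω D v := contDiffAt_det fun i j => contDiffAt_jr (hA i) j
    let C : Fin (d + 1) → ℂ → ℂ := fun j s =>
      ∑ b, w b * ((D (γ s))⁻¹ * jr bs (om d j : ℂ) (A j) (γ s) (Fin.succ b))
    have hCa : ∀ j, AnalyticAt ℂ (C j) 0 := by
      intro j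
      have h1 : ContDiffAt ℂ ω (fun u => ∑ b, w b *
          ((D u)⁻¹ * jr bs (om d j : ℂ) (A j) u (Fin.succ b))) (γ 0) := by
        rw [hγ0]
        exact ContDiffAt.sum fun b _ => contDiffAt_const.mul
          ((hDc.inv hdet).mul (contDiffAt_jr (hA j) _))
      exact (h1.comp (0 : ℂ) (hγc 0)).analyticAt
    let U : List (Fin (d + 1)) → ℂ → ℂ := fun l s => wd bs A l g (γ s)
    have hwd : ∀ l, ContDiffAt ℂ ω (wd bs A l g) v := fun l => contDiffAt_wd hA hg l
    have hUa : ∀ l, AnalyticAt ℂ (U l) 0 := by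
      intro l
      have h1 : ContDiffAt ℂ ω (wd bs A l g) (γ 0) := by rw [hγ0]; exact hwd l
      exact (h1.comp (0 : ℂ) (hγc 0)).analyticAt
    have hder : ∀ l, deriv (U l) =ᶠ[𝓝 0] fun s => ∑ j, C j s * U (j :: l) s := by
      intro l
      filter_upwards [hγt.eventually ((hwd l).eventually (by simp)),
        hγt.eventually (hDc.continuousAt.eventually_ne hdet)] with s h1 h2
      have h3 : HasDerivAt (U l) (fderiv ℂ (wd bs A l g) (γ s) w) s :=
        (h1.differentiableAt hn).hasFDerivAt.comp_hasDerivAt s (hγd s)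
      rw [h3.deriv, fd_sum]
      have h4 : ∀ b, fderiv ℂ (wd bs A l g) (γ s) (bs b) =
          (D (γ s))⁻¹ * ∑ j, jr bs (om d j : ℂ) (A j) (γ s) (Fin.succ b) * U (j :: l) s := by
        intro b
        have h5 := brk_expand A ((wt l : ℕ) : ℂ) (wd bs A l g) (γ s) (Fin.succ b)
        rw [eq_inv_mul_iff_mul_eq₀ h2]
        exact h5
      simp only [h4, smul_eq_mul, C, Finset.mul_sum, Finset.sum_mul]
      rw [Finset.sum_comm]
      refine Finset.sum_congr rfl fun j _ => Finset.sum_congr rfl fun b _ => ?_
      ring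
    have hord : ∀ n : ℕ, ∀ l, (n : ℕ∞) ≤ analyticOrderAt (U l) 0 := by
      intro n
      induction n with
      | zero => intro l; simp
      | succ n ih =>
        intro l
        have h1 := (hUa l).analyticOrderAt_deriv_add_one
        have h2 : (fun s => U l s - U l 0) = U l := by
          funext s
          have : U l 0 = 0 := by
            show wd bs A l g (γ 0) = 0
            rw [hγ0]
            exact h0 l
          rw [this, sub_zero]
        rw [h2] at h1
        rw [← h1, Nat.cast_succ]
        gcongr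
        rw [analyticOrderAt_congr (hder l)]
        have h3 : ∀ j, ∃ G : ℂ → ℂ, AnalyticAt ℂ G 0 ∧
            ∀ᶠ z in 𝓝 0, U (j :: l) z = (z - 0) ^ n • G z := fun j =>
          (natCast_le_analyticOrderAt (hUa _)).1 (ih (j :: l))
        choose G hG hGe using h3
        refine (natCast_le_analyticOrderAt ?_).2 ⟨fun s => ∑ j, C j s * G j s, ?_, ?_⟩
        · exact Finset.analyticAt_fun_sum _ fun j _ => (hCa j).mul (hUa _)
        · exact Finset.analyticAt_fun_sum _ fun j _ => (hCa j).mul (hG _)
        · filter_upwards [(Filter.eventually_all).2 hGe] with s hs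
          simp only [hs, smul_eq_mul, Finset.mul_sum]
          refine Finset.sum_congr rfl fun j _ => ?_
          ring
    have htop : analyticOrderAt (U []) 0 = ⊤ := by
      rw [ENat.eq_top_iff_forall_ge]
      exact fun n => hord n []
    exact analyticOrderAt_eq_top.1 htop
  obtain ⟨δ, hδ, hball⟩ := Metric.eventually_nhds_iff_ball.1 (hg.eventually (by simp))
  filter_upwards [ball_mem_nhds v hδ] with u hu
  set w := u - v with hw
  have hconv : Convex ℝ {s : ℂ | v + s • w ∈ ball v δ} := by
    intro s hs t ht a b ha hb hab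
    have h1 := (convex_ball v δ) hs ht ha hb hab
    have h2 : v + (a • s + b • t) • w = a • (v + s • w) + b • (v + t • w) := by
      have h3 : (a : ℂ) + b = 1 := by exact_mod_cast hab
      have h4 : v = ((a : ℂ) + b) • v := by rw [h3, one_smul]
      conv_lhs => rw [h4]
      simp only [← Complex.coe_smul, smul_add, add_smul, smul_smul, smul_eq_mul]
      abel
    show v + (a • s + b • t) • w ∈ ball v δ
    rw [h2]
    exact h1
  have han : AnalyticOnNhd ℂ (fun s : ℂ => g (v + s • w)) {s : ℂ | v + s • w ∈ ball v δ} := by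
    intro s hs
    have h1 : ContDiffAt ℂ ω g (v + s • w) := hball _ hs
    have h2 : ContDiffAt ℂ ω (fun s : ℂ => v + s • w) s :=
      contDiffAt_const.add (contDiffAt_id.smul contDiffAt_const)
    exact (h1.comp s h2).analyticAt
  have h0m : (0 : ℂ) ∈ {s : ℂ | v + s • w ∈ ball v δ} := by
    show v + (0 : ℂ) • w ∈ ball v δ
    simpa using hδ
  have h1m : (1 : ℂ) ∈ {s : ℂ | v + s • w ∈ ball v δ} := by
    show v + (1 : ℂ) • w ∈ ball v δ
    rw [one_smul, hw, add_sub_cancel]
    exact hu
  have h1 := han.eqOn_zero_of_preconnected_of_eventuallyEq_zero hconv.isPreconnected h0m (key w) h1m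
  have h2 : g (v + (1 : ℂ) • w) = 0 := h1
  rwa [one_smul, hw, add_sub_cancel] at h2

end Br

section Ne

variable {d g : ℕ} {V : Type} [NormedAddCommGroup V] [InnerProductSpace ℂ V]
  [FiniteDimensional ℂ V]

theorem contDiffAt_fr (m : Fin d → (V →L[ℂ] ℂ)) {h : (Fin d → ℂ) → V} {v : Fin d → ℂ}
    (hh : ContDiffAt ℂ ω h v) (i : Fin (d + 1)) : ContDiffAt ℂ ω (fr m h i) v := by
  refine Fin.cases ?_ (fun j => ?_) i
  · exact minor_contDiffAt _ hh
  · exact (m j).contDiff.contDiffAt.comp v hh

/-- the determinant of the frame -/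
theorem det_fr (m : Fin d → (V →L[ℂ] ℂ)) {h : (Fin d → ℂ) → V} {v : Fin d → ℂ}
    (hh : ContDiffAt ℂ ω h v) :
    (Matrix.of fun i => jr bs (om d i : ℂ) (fr m h i) v).det = minor m h v ^ 2 := by
  have hn : (ω : WithTop ℕ∞) ≠ 0 := by simp
  rw [Matrix.det_succ_column_zero, Fin.sum_univ_succ]
  have h0 : ∀ j : Fin d, (Matrix.of fun i => jr bs (om d i : ℂ) (fr m h i) v) j.succ 0 = 0 := by
    intro j
    simp [jr, om]
  have h1 : (Matrix.of fun i => jr bs (om d i : ℂ) (fr m h i) v) 0 0 = minor m h v := by
    simp [jr, om, fr]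
  have h2 : ((Matrix.of fun i => jr bs (om d i : ℂ) (fr m h i) v).submatrix
      (Fin.succAbove 0) Fin.succ) = Matrix.of fun a b => m a (fderiv ℂ h v (bs b)) := by
    ext a b
    have h3 : HasFDerivAt (fun u => m a (h u)) ((m a).comp (fderiv ℂ h v)) v :=
      (m a).hasFDerivAt.comp v (hh.differentiableAt hn).hasFDerivAt
    simp only [Matrix.submatrix_apply, Matrix.of_apply, Fin.zero_succAbove]
    unfold jr
    rw [Fin.cons_succ]
    show fderiv ℂ (fun u => m a (h u)) v (bs b) = _
    rw [h3.fderiv]
    rfl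
  rw [h1, h2]
  simp only [h0]
  simp
  rw [← minor_eq, sq]

/-- **U1d** -/
theorem neStmt : NeStmt := by
  intro d g V _ _ _ e h v₁ m _ hh hm hnd
  obtain ⟨T, hT⟩ := exists_det_ne
    (fun (x : List (Fin (d + 1)) × Fin d) (s : Fin g) =>
      wd bs (fr m h) x.1 (minor (Function.update m x.2 (cL e s)) h) v₁)
    (fun c hc => by
      set L : V →L[ℂ] ℂ := ∑ s, c s • cL e s with hL
      have h1 : ∀ a, ∀ᶠ v in 𝓝 v₁, minor (Function.update m a L) h v = 0 := by
        intro a
        refine wd_zero (A := fr m h) (fun j => contDiffAt_fr m hh j)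
          (by rw [det_fr m hh]; exact pow_ne_zero 2 hm) (minor_contDiffAt _ hh) fun l => ?_
        have h2 : (minor (Function.update m a L) h) =
            fun u => ∑ s, c s * minor (Function.update m a (cL e s)) h u := by
          funext u
          exact minor_update_sum m a Finset.univ c (fun s => cL e s) h u
        rw [h2, (wd_sum (fun j => contDiffAt_fr m hh j) Finset.univ c
          (fun s _ => minor_contDiffAt _ hh) l).self_of_nhds]
        exact hc (l, a)
      have h3 : L = 0 := by
        refine hnd L ?_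
        filter_upwards [(Filter.eventually_all).2 h1,
          (minor_contDiffAt m hh).continuousAt.eventually_ne hm] with v h4 h5 ξ
        set N : Matrix (Fin d) (Fin d) ℂ := Matrix.of fun a b => m a (fderiv ℂ h v (bs b)) with hN
        have h6 : Matrix.cramer N.transpose (fun b => L (fderiv ℂ h v (bs b))) = 0 := by
          funext a
          rw [Matrix.cramer_transpose_apply]
          have h7 : N.updateRow a (fun b => L (fderiv ℂ h v (bs b))) =
              Matrix.of fun a' b => (Function.update m a L) a' (fderiv ℂ h v (bs b)) := by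
            ext a' b
            by_cases haa : a' = a
            · subst haa
              rw [Matrix.updateRow_self, Matrix.of_apply, Function.update_self]
            · rw [Matrix.updateRow_ne haa, Matrix.of_apply, Function.update_of_ne haa, hN,
                Matrix.of_apply]
          rw [h7]
          exact h4 a
        have h8 := Matrix.mulVec_cramer N.transpose (fun b => L (fderiv ℂ h v (bs b)))
        rw [h6, Matrix.mulVec_zero, Matrix.det_transpose] at h8
        have h9 : ∀ b, L (fderiv ℂ h v (bs b)) = 0 := by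
          intro b
          have h10 := congrFun h8 b
          rw [Pi.zero_apply, Pi.smul_apply, smul_eq_mul] at h10
          exact (mul_eq_zero.1 h10.symm).resolve_left h5
        rw [fd_sum, map_sum]
        refine Finset.sum_eq_zero fun b _ => ?_
        rw [map_smul, h9, smul_zero]
      funext s
      have h4 := congrArg (fun F : V →L[ℂ] ℂ => F (e s)) h3
      simp only [hL, sum_apply, smul_apply, zero_apply, smul_eq_mul] at h4
      have h5 : ∀ s', cL e s' (e s) = if s' = s then 1 else 0 := by
        intro s'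
        show e.coord s' (e s) = _
        rw [Basis.coord_apply, Basis.repr_self, Finsupp.single_apply]
        simp only [eq_comm]
      simp only [h5, mul_ite, mul_one, mul_zero, Finset.sum_ite_eq', Finset.mem_univ,
        if_true] at h4
      exact h4)
  exact ⟨fun i => (T i).2, fun i => (T i).1, fun _ => m, hT⟩

end Ne

end Vale.Agent.P281.H125.U
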