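import Vale.Agent.P281.H125.U.Ne

/-!
# P281, project T-U (helper125): blocks U1a, U1b, U1c, the terms of the series
-/

open Vale.Agent.P281.H713 hiding brk wd KK tcomp nk tm contDiffAt_brk contDiffAt_wd wd_sum
  brk_expand wd_zero det_upd wd_transf wd_slice wd_congr wd_bound KK_transf KK_map KK_joint
  KK_congr KK_bound tm_transf
open Vale.Agent.P281.H511.U
open scoped Topology ContDiff
open Set Filter Module Metric

namespace Vale.Agent.P281.H125.U

section Br

variable {d : ℕ} {W W' : Type*} [NormedAddCommGroup W] [NormedSpace ℂ W] [NormedAddCommGroup W']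
  [NormedSpace ℂ W']

theorem det_upd (N : Fin (d + 1) → Fin (d + 1) → ℂ) (R : Fin (d + 1) → ℂ)
    (T : Matrix (Fin (d + 1)) (Fin (d + 1)) ℂ) (a : Fin (d + 1) → ℂ) (b : ℂ) (j : Fin (d + 1)) :
    ((Matrix.of fun i => a i • Matrix.vecMul (N i) T).updateRow j (b • Matrix.vecMul R T)).det =
      (∏ i ∈ Finset.univ \ {j}, a i) * b * ((Matrix.of N).updateRow j R).det * T.det := by
  have h1 : (Matrix.of fun i => a i • Matrix.vecMul (N i) T).updateRow j
      (b • Matrix.vecMul R T) =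
      Matrix.diagonal (Function.update a j b) * (((Matrix.of N).updateRow j R) * T) := by
    ext i k
    rw [Matrix.diagonal_mul]
    by_cases hij : i = j
    · subst hij
      rw [Matrix.updateRow_self, Function.update_self, Matrix.mul_apply_eq_vecMul,
        Matrix.updateRow_self]
      rfl
    · rw [Matrix.updateRow_ne hij, Function.update_of_ne hij, Matrix.mul_apply_eq_vecMul,
        Matrix.updateRow_ne hij]
      rfl
  rw [h1, Matrix.det_mul, Matrix.det_mul, Matrix.det_diagonal,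
    Finset.prod_update_of_mem (Finset.mem_univ j)]
  ring

theorem prod_om (D : ℂ) (j : Fin (d + 1)) :
    (∏ i ∈ Finset.univ \ {j}, D ^ om d i) = if j = 0 then 1 else D := by
  have h0 : ∀ i : Fin (d + 1), i ≠ 0 → om d i = 0 := by
    intro i
    refine Fin.cases (fun h => absurd rfl h) (fun b _ => ?_) i
    simp [om]
  split_ifs with h
  · subst h
    refine Finset.prod_eq_one fun i hi => ?_
    rw [h0 i (by simpa using hi), pow_zero]
  · rw [Finset.prod_eq_single 0]
    · simp [om]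
    · intro i _ hi
      rw [h0 i hi, pow_zero]
    · intro h1
      exact absurd (by simpa using Ne.symm h) h1

theorem jr_zero_add {ε : Fin d → W} (g : W → ℂ) (c : ℂ) (p : W) :
    jr ε 0 (fun u => g u + c) p = jr ε 0 g p := by
  unfold jr
  rw [fderiv_add_const]
  simp

theorem wd_congr {ε : Fin d → W} {A A' : Fin (d + 1) → W → ℂ} {g g' : W → ℂ} {p : W}
    (hA : ∀ i, A i =ᶠ[𝓝 p] A' i) (hg : g =ᶠ[𝓝 p] g') (l : List (Fin (d + 1))) :
    wd ε A l g =ᶠ[𝓝 p] wd ε A' l g' := by
  induction l with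
  | nil => exact hg
  | cons j l ih =>
    filter_upwards [eventually_eventually_nhds.2 ih,
      (Filter.eventually_all).2 fun i => eventually_eventually_nhds.2 (hA i)] with u h1 h2
    show brk ε A _ j (wd ε A l g) u = brk ε A' _ j (wd ε A' l g') u
    unfold brk
    rw [jr_congr h1]
    congr 2
    ext i k
    rw [Matrix.of_apply, Matrix.of_apply, jr_congr (h2 i)]

/-- transformation of the iterated brackets -/
theorem wd_transf {ε : Fin d → W} {ε' : Fin d → W'} {A : Fin (d + 1) → W → ℂ}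
    {A' : Fin (d + 1) → W' → ℂ} {g : W → ℂ} {g' : W' → ℂ} {ψ : W' → W}
    {Ψ : W' → Matrix (Fin d) (Fin d) ℂ} {κ : Fin (d + 1) → ℂ} {p : W'} (hκ : κ 0 = 0)
    (hψ : ContDiffAt ℂ ω ψ p)
    (hΨ : ∀ᶠ u in 𝓝 p, ∀ b, fderiv ℂ ψ u (ε' b) = ∑ c, Ψ u c b • ε c)
    (hJ : ContDiffAt ℂ ω (fun u => (Ψ u).det) p) (hJ0 : (Ψ p).det ≠ 0)
    (hA : ∀ i, ContDiffAt ℂ ω (A i) (ψ p)) (hg : ContDiffAt ℂ ω g (ψ p))
    (hA' : ∀ i, A' i =ᶠ[𝓝 p] fun u => (Ψ u).det ^ om d i * A i (ψ u) + κ i)
    (hg' : g' =ᶠ[𝓝 p] fun u => (Ψ u).det * g (ψ u)) (l : List (Fin (d + 1))) :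
    wd ε' A' l g' =ᶠ[𝓝 p] fun u => (Ψ u).det ^ wt l * wd ε A l g (ψ u) := by
  have hn : (ω : WithTop ℕ∞) ≠ 0 := by simp
  have hA1 : ∀ᶠ u in 𝓝 p, ∀ i, ContDiffAt ℂ ω (A i) (ψ u) :=
    (Filter.eventually_all).2 fun i =>
      hψ.continuousAt.eventually ((hA i).eventually (by simp))
  have hA'1 : ∀ᶠ u in 𝓝 p, ∀ i, A' i =ᶠ[𝓝 u] fun u => (Ψ u).det ^ om d i * A i (ψ u) + κ i :=
    (Filter.eventually_all).2 fun i => eventually_eventually_nhds.2 (hA' i)
  induction l with
  | nil =>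
    filter_upwards [hg'] with u hu
    simp only [wd, wt, pow_one]
    exact hu
  | cons j l ih =>
    filter_upwards [hψ.eventually (by simp), hΨ, hJ.eventually (by simp),
      hJ.continuousAt.eventually_ne hJ0, hA1, hA'1,
      hψ.continuousAt.eventually ((contDiffAt_wd hA hg l).eventually (by simp)),
      eventually_eventually_nhds.2 ih] with u h1 h2 h3 h4 h5 h6 h7 h8
    have e1 := jr_transf (w := wt l) (c := 1) (g' := wd ε' A' l g') (h1.differentiableAt hn) h2
      (h3.differentiableAt hn) h4 (h7.differentiableAt hn)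
      (h8.mono fun z hz => by
        show wd ε' A' l g' z = 1 * (Ψ z).det ^ wt l * wd ε A l g (ψ z)
        rw [one_mul]
        exact hz)
    rw [one_mul] at e1
    have e2 : ∀ i, jr ε' (om d i : ℂ) (A' i) u = ((Ψ u).det ^ om d i) •
        Matrix.vecMul (jr ε (om d i : ℂ) (A i) (ψ u))
        (tmat (fun b => fderiv ℂ (fun u => (Ψ u).det) u (ε' b) / (Ψ u).det) (Ψ u)) := by
      intro i
      have h9 : jr ε' (om d i : ℂ) (A' i) u =
          jr ε' (om d i : ℂ) (fun u => (Ψ u).det ^ om d i * A i (ψ u)) u := by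
        rw [jr_congr (h6 i)]
        refine Fin.cases ?_ (fun b => ?_) i
        · rw [hκ]
          simp only [add_zero]
        · have h10 : om d b.succ = 0 := by simp [om]
          rw [h10, Nat.cast_zero]
          exact jr_zero_add _ _ _
      rw [h9]
      have := jr_transf (w := om d i) (c := 1)
        (g' := fun u => (Ψ u).det ^ om d i * A i (ψ u)) (h1.differentiableAt hn) h2
        (h3.differentiableAt hn) h4 ((h5 i).differentiableAt hn)
        (Eventually.of_forall fun z => by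
          show (Ψ z).det ^ om d i * A i (ψ z) = 1 * (Ψ z).det ^ om d i * A i (ψ z)
          rw [one_mul])
      rw [one_mul] at this
      exact this
    show brk ε' A' _ j (wd ε' A' l g') u = _ * brk ε A _ j (wd ε A l g) (ψ u)
    unfold brk
    rw [e1]
    simp only [e2]
    rw [det_upd, det_tmat, prod_om]
    simp only [wt]
    split_ifs <;> ring

/-- slices -/
theorem wd_slice {P : Type*} [NormedAddCommGroup P] [NormedSpace ℂ P] {ε : Fin d → W}
    {A : Fin (d + 1) → P × W → ℂ} {g : P × W → ℂ} {x : P × W}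
    (hA : ∀ i, ContDiffAt ℂ ω (A i) x) (hg : ContDiffAt ℂ ω g x) (l : List (Fin (d + 1))) :
    wd ε (fun i u => A i (x.1, u)) l (fun u => g (x.1, u)) x.2 =
      wd (fun b => ((0 : P), ε b)) A l g x := by
  have hψ : ContDiffAt ℂ ω (fun u : W => (x.1, u)) x.2 := contDiffAt_const.prodMk contDiffAt_id
  have h1 := wd_transf (ε' := ε) (ε := fun b => ((0 : P), ε b)) (A' := fun i u => A i (x.1, u))
    (g' := fun u => g (x.1, u)) (ψ := fun u => (x.1, u)) (Ψ := fun _ => 1) (κ := 0) (p := x.2)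
    rfl hψ (Eventually.of_forall fun u b => ?_) (by simpa using contDiffAt_const)
    (by simp) hA hg (fun i => Eventually.of_forall fun u => by simp)
    (Eventually.of_forall fun u => by simp) l
  · have h2 := h1.self_of_nhds
    simpa using h2
  · have h3 : HasFDerivAt (fun u : W => (x.1, u)) (ContinuousLinearMap.inr ℂ P W) u :=
      hasFDerivAt_prodMk_right _ _
    rw [h3.fderiv]
    simp [Matrix.one_apply]

/-- bound for iterated brackets of functions with bounded rows -/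
theorem wd_bound {r B : ℝ} (hr : 0 < r) (hB : 0 ≤ B) (l : List (Fin (d + 1))) :
    ∃ K : ℝ, 0 ≤ K ∧ ∀ (A : Fin (d + 1) → (Fin d → ℂ) → ℂ) (g : (Fin d → ℂ) → ℂ) (v₀ : Fin d → ℂ),
      (∀ i, DifferentiableOn ℂ (A i) (ball v₀ r)) → DifferentiableOn ℂ g (ball v₀ r) →
      (∀ i k, ∀ v ∈ ball v₀ r, ‖jr bs (om d i : ℂ) (A i) v k‖ ≤ B) →
      (∀ v ∈ ball v₀ r, ‖g v‖ ≤ B) → ‖wd bs A l g v₀‖ ≤ K := by
  induction l generalizing r with
  | nil => exact ⟨B, hB, fun A g v₀ _ _ _ h => h v₀ (mem_ball_self hr)⟩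
  | cons j l ih =>
    obtain ⟨K₁, hK₁0, hK₁⟩ := ih (half_pos hr)
    set w : ℂ := ((wt l : ℕ) : ℂ) with hw
    set M : ℝ := B + ‖w‖ * K₁ + K₁ / (r / 2) with hM
    have hM0 : 0 ≤ M := by positivity
    obtain ⟨K, hK0, hK⟩ := det_bound (k := d + 1) hM0
    refine ⟨K, hK0, fun A g v₀ hA hg hAB hgB => hK _ fun i k => ?_⟩
    have hsub : ∀ u ∈ ball v₀ (r / 2), ball u (r / 2) ⊆ ball v₀ r := by
      intro u hu
      refine ball_subset_ball' ?_
      have := mem_ball.1 hu
      linarith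
    have hf1 : ∀ {F : (Fin d → ℂ) → ℂ} {C ρ : ℝ}, 0 < ρ → 0 ≤ C →
        DifferentiableOn ℂ F (ball v₀ ρ) → (∀ v ∈ ball v₀ ρ, ‖F v‖ ≤ C) → ∀ b,
        ‖fderiv ℂ F v₀ (bs b)‖ ≤ C / ρ := by
      intro F C ρ hρ hC hF hFC b
      have h1 := MF.norm_fderiv_le_of_ball hρ hF hFC
      have h2 := (fderiv ℂ F v₀).le_opNorm (bs b)
      rw [norm_bs, mul_one] at h2
      exact h2.trans h1
    by_cases hij : i = j
    · subst hij
      rw [Matrix.updateRow_self]
      have hwdd : DifferentiableOn ℂ (wd bs A l g) (ball v₀ (r / 2)) := by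
        intro u hu
        have hu' : u ∈ ball v₀ r := ball_subset_ball (by linarith) hu
        exact ((contDiffAt_wd (fun i => (MF.analyticAt_of_differentiableOn isOpen_ball (hA i)
          hu').contDiffAt) (MF.analyticAt_of_differentiableOn isOpen_ball hg
          hu').contDiffAt l).differentiableAt (n := ω) (by simp)).differentiableWithinAt
      have hwdb : ∀ u ∈ ball v₀ (r / 2), ‖wd bs A l g u‖ ≤ K₁ := fun u hu =>
        hK₁ A g u (fun i => (hA i).mono (hsub u hu)) (hg.mono (hsub u hu))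
          (fun i k v hv => hAB i k v (hsub u hu hv)) fun v hv => hgB v (hsub u hu hv)
      have h4 : 0 ≤ K₁ / (r / 2) := by positivity
      have h5 : 0 ≤ ‖w‖ * K₁ := by positivity
      unfold jr
      refine Fin.cases ?_ (fun b => ?_) k
      · rw [Fin.cons_zero, norm_mul]
        have h1 := hwdb v₀ (mem_ball_self (half_pos hr))
        have h2 : ‖w‖ * ‖wd bs A l g v₀‖ ≤ ‖w‖ * K₁ := by gcongr
        linarith
      · rw [Fin.cons_succ]
        have h1 := hf1 (half_pos hr) hK₁0 hwdd hwdb b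
        linarith
    · rw [Matrix.updateRow_ne hij, Matrix.of_apply]
      have h1 := hAB i k v₀ (mem_ball_self hr)
      have h4 : 0 ≤ K₁ / (r / 2) := by positivity
      have h5 : 0 ≤ ‖w‖ * K₁ := by positivity
      linarith

end Br

section KK

variable {d g : ℕ} {V : Type} [NormedAddCommGroup V] [InnerProductSpace ℂ V]
  [FiniteDimensional ℂ V]

variable {e : Basis (Fin g) ℂ V} {i₀ : Fin g → Fin d} {l : Fin g → List (Fin (d + 1))}

theorem KK_transf (τ : Tp d g V) {h h' : (Fin d → ℂ) → V} {φ : (Fin d → ℂ) → (Fin d → ℂ)}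
    {v : Fin d → ℂ} (c : V) (hφ : ContDiffAt ℂ ω φ v) (hφ0 : (fderiv ℂ φ v).det ≠ 0)
    (hh : ContDiffAt ℂ ω h (φ v)) (hh' : h' =ᶠ[𝓝 v] fun u => h (φ u) + c)
    (ht : ∀ m, minor m h' =ᶠ[𝓝 v] fun u => (fderiv ℂ φ u).det * minor m h (φ u)) :
    KK e i₀ l τ h' v = (fderiv ℂ φ v).det ^ nk l * KK e i₀ l τ h (φ v) := by
  have hdet : ∀ u, (Matrix.of fun c b => fderiv ℂ φ u (bs b) c).det = (fderiv ℂ φ u).det :=
    fun u => det_fd _
  have h1 : ∀ i s, wd bs (fr τ.1 h') (l i)
      (minor (Function.update (τ.2 i) (i₀ i) (cL e s)) h') v =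
      ((fderiv ℂ φ v).det ^ wt (l i)) *
      wd bs (fr τ.1 h) (l i)
        (minor (Function.update (τ.2 i) (i₀ i) (cL e s)) h) (φ v) := by
    intro i s
    have h2 := wd_transf (ε := bs) (ε' := bs) (A := fr τ.1 h)
      (A' := fr τ.1 h') (g := minor (Function.update (τ.2 i) (i₀ i) (cL e s)) h)
      (g' := minor (Function.update (τ.2 i) (i₀ i) (cL e s)) h') (ψ := φ)
      (Ψ := fun u => Matrix.of fun c b => fderiv ℂ φ u (bs b) c)
      (κ := Fin.cons 0 fun j => τ.1 j c) (p := v) rfl hφ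
      (Eventually.of_forall fun u b => sum_bs _)
      (contDiffAt_det fun i j => (contDiffAt_pi.1 (contDiffAt_fd hφ (bs j))) i)
      (by rw [hdet]; exact hφ0) (fun j => contDiffAt_fr τ.1 hh j) (minor_contDiffAt _ hh)
      (fun j => by
        simp only [hdet]
        refine Fin.cases ?_ (fun b => ?_) j
        · filter_upwards [ht τ.1] with u hu
          simp only [fr, om, Fin.cons_zero, pow_one, add_zero]
          exact hu
        · filter_upwards [hh'] with u hu
          simp only [fr, om, Fin.cons_succ, pow_zero, one_mul]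
          rw [hu, map_add]) (by simp only [hdet]; exact ht _) (l i)
    have h3 := h2.self_of_nhds
    simp only [hdet] at h3
    exact h3
  unfold KK
  simp only [h1]
  refine (Matrix.det_mul_column (fun i => (fderiv ℂ φ v).det ^ wt (l i))
    (Matrix.of fun i s => wd bs (fr τ.1 h) (l i)
        (minor (Function.update (τ.2 i) (i₀ i) (cL e s)) h) (φ v))).trans ?_
  rw [Finset.prod_pow_eq_pow_sum]
  rfl

theorem KK_map (τ : Tp d g V) {h : (Fin d → ℂ) → V} {v : Fin d → ℂ} (hh : ContDiffAt ℂ ω h v)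
    (C : V →L[ℂ] V) : KK e i₀ l τ (fun u => C (h u)) v = C.det * KK e i₀ l (tcomp τ C) h v := by
  have hn : (ω : WithTop ℕ∞) ≠ 0 := by simp
  have hm : ∀ m, minor m (fun u => C (h u)) =ᶠ[𝓝 v] minor (fun a => (m a).comp C) h := by
    intro m
    filter_upwards [hh.eventually (by simp)] with u hu
    exact minor_map' m (hu.differentiableAt hn) C
  have hfr : ∀ j, fr τ.1 (fun u => C (h u)) j =ᶠ[𝓝 v] fr (tcomp τ C).1 h j := by
    intro j
    refine Fin.cases ?_ (fun b => ?_) j
    · exact hm _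
    · exact Eventually.of_forall fun u => rfl
  set T := LinearMap.toMatrix e e (C : V →ₗ[ℂ] V) with hT
  have hcL : ∀ s, (cL e s).comp C = ∑ s', T s s' • cL e s' := by
    intro s
    have h1 : ∀ v, cL e s v = e.repr v s := fun v => rfl
    refine ContinuousLinearMap.ext fun x => ?_
    rw [ContinuousLinearMap.comp_apply, sum_apply, h1]
    have h2 := LinearMap.toMatrix_mulVec_repr e e (C : V →ₗ[ℂ] V) x
    have h3 := congrFun h2 s
    rw [Matrix.mulVec, dotProduct] at h3
    exact h3.symm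
  have key : ∀ i s, wd bs (fr τ.1 fun u => C (h u)) (l i)
      (minor (Function.update (τ.2 i) (i₀ i) (cL e s)) fun u => C (h u)) v =
      ∑ s', T s s' * wd bs (fr (tcomp τ C).1 h) (l i)
        (minor (Function.update ((tcomp τ C).2 i) (i₀ i) (cL e s')) h) v := by
    intro i s
    have h1 : minor (Function.update (τ.2 i) (i₀ i) (cL e s)) (fun u => C (h u)) =ᶠ[𝓝 v]
        fun u => ∑ s', T s s' *
          minor (Function.update ((tcomp τ C).2 i) (i₀ i) (cL e s')) h u := by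
      filter_upwards [hm (Function.update (τ.2 i) (i₀ i) (cL e s))] with u hu
      rw [hu]
      rw [← minor_update_sum]
      congr 1
      funext a
      by_cases ha : a = i₀ i
      · subst ha
        rw [Function.update_self, Function.update_self, hcL]
      · rw [Function.update_of_ne ha, Function.update_of_ne ha]
        rfl
    have h2 := (wd_congr (ε := bs) hfr h1 (l i)).self_of_nhds
    rw [h2]
    exact (wd_sum (fun j => contDiffAt_fr _ hh j) Finset.univ _
      (fun s' _ => minor_contDiffAt _ hh) (l i)).self_of_nhds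
  have h3 : (Matrix.of fun i s => wd bs (fr τ.1 fun u => C (h u)) (l i)
      (minor (Function.update (τ.2 i) (i₀ i) (cL e s)) fun u => C (h u)) v) =
      (Matrix.of fun i s => wd bs (fr (tcomp τ C).1 h) (l i)
        (minor (Function.update ((tcomp τ C).2 i) (i₀ i) (cL e s)) h) v) * T.transpose := by
    ext i s
    rw [Matrix.of_apply, key, Matrix.mul_apply]
    refine Finset.sum_congr rfl fun s' _ => ?_
    rw [Matrix.transpose_apply, Matrix.of_apply, mul_comm]
  unfold KK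
  rw [h3, Matrix.det_mul, Matrix.det_transpose, mul_comm, hT, LinearMap.det_toMatrix]

/-- **U1b** -/
theorem mapStmt : MapStmt := by
  intro d g V _ _ _ e i₀ l τ h v hh C
  exact KK_map τ hh C

theorem KK_joint {P : Type*} [NormedAddCommGroup P] [NormedSpace ℂ P] {τ : P → Tp d g V}
    {B : P × (Fin d → ℂ) → V} {x₀ : P × (Fin d → ℂ)} (hτ : ContDiffAt ℂ ω τ x₀.1)
    (hB : ContDiffAt ℂ ω B x₀) :
    ContDiffAt ℂ ω (fun x : P × (Fin d → ℂ) =>
      KK e i₀ l (τ x.1) (fun u => B (x.1, u)) x.2) x₀ := by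
  let A : Fin (d + 1) → P × (Fin d → ℂ) → ℂ := fun j x =>
    fr (τ x.1).1 (fun u => B (x.1, u)) j x.2
  let G : Fin g → Fin g → P × (Fin d → ℂ) → ℂ := fun i s x =>
    minor (Function.update ((τ x.1).2 i) (i₀ i) (cL e s)) (fun u => B (x.1, u)) x.2
  have hA : ∀ j, ContDiffAt ℂ ω (A j) x₀ := by
    intro j
    refine Fin.cases ?_ (fun b => ?_) j
    · exact minor_joint (μ := fun p => (τ p).1) hτ.fst hB
    · have h1 : ContDiffAt ℂ ω (fun x : P × (Fin d → ℂ) => (τ x.1).1 b) x₀ := by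
        have h2 : ContDiffAt ℂ ω (fun x : P × (Fin d → ℂ) => (τ x.1).1) x₀ :=
          (hτ.fst).comp x₀ contDiffAt_fst
        exact (contDiffAt_pi.1 h2) b
      exact h1.clm_apply hB
  have hG : ∀ i s, ContDiffAt ℂ ω (G i s) x₀ := by
    intro i s
    refine minor_joint (μ := fun p => Function.update ((τ p).2 i) (i₀ i) (cL e s)) ?_ hB
    refine contDiffAt_pi.2 fun a => ?_
    by_cases ha : a = i₀ i
    · subst ha
      simp only [Function.update_self]
      exact contDiffAt_const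
    · simp only [Function.update_of_ne ha]
      exact contDiffAt_pi.1 ((contDiffAt_pi.1 hτ.snd) i) a
  have h1 : (fun x : P × (Fin d → ℂ) => KK e i₀ l (τ x.1) (fun u => B (x.1, u)) x.2) =ᶠ[𝓝 x₀]
      fun x => (Matrix.of fun i s => wd (fun b => ((0 : P), bs b)) A (l i) (G i s) x).det := by
    filter_upwards [(Filter.eventually_all).2 fun j => (hA j).eventually (by simp),
      (Filter.eventually_all).2 fun i => (Filter.eventually_all).2 fun s =>
        (hG i s).eventually (by simp)] with x hx hx'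
    unfold KK
    congr 1
    ext i s
    exact wd_slice hx (hx' i s) (l i)
  refine ContDiffAt.congr_of_eventuallyEq ?_ h1
  exact contDiffAt_det fun i s => contDiffAt_wd hA (hG i s) (l i)

/-- **U1c** -/
theorem jointStmt : JointStmt := by
  intro d g V P _ _ _ _ _ e i₀ l τ B x₀ hτ hB
  exact KK_joint hτ hB

theorem KK_bound {r R₀ R : ℝ} (hr : 0 < r) (hR : 0 ≤ R) (e : Basis (Fin g) ℂ V)
    (i₀ : Fin g → Fin d) (l : Fin g → List (Fin (d + 1))) : ∃ K : ℝ, 0 ≤ K ∧
    ∀ (τ : Tp d g V), ‖τ‖ ≤ R₀ → ∀ (h : (Fin d → ℂ) → V) (v₀ : Fin d → ℂ),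
      DifferentiableOn ℂ h (ball v₀ r) → (∀ v ∈ ball v₀ r, ‖fderiv ℂ h v‖ ≤ R) →
      ‖KK e i₀ l τ h v₀‖ ≤ K := by
  set R₁ : ℝ := |R₀| + ∑ s, ‖cL e s‖ + 1 with hR₁
  have hs0 : 0 ≤ ∑ s, ‖cL e s‖ := Finset.sum_nonneg fun _ _ => norm_nonneg _
  have hR₁0 : 0 < R₁ := by positivity
  have hRR : 0 ≤ R₁ * R := by positivity
  obtain ⟨B₀, hB₀0, hB₀⟩ := det_bound (k := d) hRR
  set B₁ : ℝ := B₀ + B₀ / (r / 2) + R₁ * R with hB₁
  have hB₁0 : 0 ≤ B₁ := by positivity
  choose K₁ hK₁0 hK₁ using fun i : Fin g => wd_bound (d := d) (half_pos hr) hB₁0 (l i)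
  set K₂ : ℝ := ∑ i, K₁ i with hK₂
  have hK₂0 : 0 ≤ K₂ := Finset.sum_nonneg fun i _ => hK₁0 i
  obtain ⟨K, hK0, hK⟩ := det_bound (k := g) hK₂0
  refine ⟨K, hK0, fun τ hτ h v₀ hh hb => hK _ fun i s => ?_⟩
  have : CompleteSpace V := FiniteDimensional.complete ℂ V
  have han : ∀ v ∈ ball v₀ r, ContDiffAt ℂ ω h v := fun v hv =>
    (MF.analyticAt_of_differentiableOn isOpen_ball hh hv).contDiffAt
  have hmd : ∀ m, DifferentiableOn ℂ (minor m h) (ball v₀ r) := fun m v hv =>
    ((minor_contDiffAt m (han v hv)).differentiableAt (by simp)).differentiableWithinAt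
  have hent : ∀ (f : V →L[ℂ] ℂ), ‖f‖ ≤ R₁ → ∀ v ∈ ball v₀ r, ∀ b,
      ‖f (fderiv ℂ h v (bs b))‖ ≤ R₁ * R := by
    intro f hf v hv b
    have h1 := f.le_opNorm (fderiv ℂ h v (bs b))
    have h2 := (fderiv ℂ h v).le_opNorm (bs b)
    rw [norm_bs, mul_one] at h2
    have h3 : ‖fderiv ℂ h v (bs b)‖ ≤ R := h2.trans (hb v hv)
    exact h1.trans (mul_le_mul hf h3 (norm_nonneg _) hR₁0.le)
  have hmb : ∀ m : Fin d → (V →L[ℂ] ℂ), (∀ a, ‖m a‖ ≤ R₁) → ∀ v ∈ ball v₀ r,
      ‖minor m h v‖ ≤ B₀ := by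
    intro m hm v hv
    rw [minor_eq]
    exact hB₀ _ fun a b => hent (m a) (hm a) v hv b
  have h1 : R₀ ≤ R₁ := by
    have := le_abs_self R₀
    linarith
  have hτ1 : ∀ a, ‖τ.1 a‖ ≤ R₁ := fun a =>
    (norm_le_pi_norm τ.1 a).trans ((norm_fst_le τ).trans (hτ.trans h1))
  have hτ2 : ∀ i a, ‖τ.2 i a‖ ≤ R₁ := fun i a =>
    ((norm_le_pi_norm (τ.2 i) a).trans (norm_le_pi_norm τ.2 i)).trans
      ((norm_snd_le τ).trans (hτ.trans h1))
  have hc : ‖cL e s‖ ≤ R₁ := by
    have h2 : ‖cL e s‖ ≤ ∑ s, ‖cL e s‖ :=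
      Finset.single_le_sum (f := fun s => ‖cL e s‖) (fun _ _ => norm_nonneg _) (Finset.mem_univ s)
    have := abs_nonneg R₀
    linarith
  have hsub : ball v₀ (r / 2) ⊆ ball v₀ r := ball_subset_ball (by linarith)
  have hq : 0 ≤ B₀ / (r / 2) := by positivity
  refine (hK₁ i _ _ v₀ (fun j => ?_) ((hmd _).mono hsub) (fun j k v hv => ?_)
    fun v hv => ?_).trans ?_
  · intro v hv
    exact ((contDiffAt_fr τ.1 (han v (hsub hv)) j).differentiableAt
      (by simp)).differentiableWithinAt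
  · have hv' := hsub hv
    refine Fin.cases ?_ (fun a => ?_) j
    · unfold jr
      refine Fin.cases ?_ (fun b => ?_) k
      · rw [Fin.cons_zero]
        have h2 := hmb τ.1 hτ1 v hv'
        simp only [om, fr, Fin.cons_zero, Nat.cast_one, one_mul]
        linarith
      · rw [Fin.cons_succ]
        have h2 : ball v (r / 2) ⊆ ball v₀ r := by
          refine ball_subset_ball' ?_
          have := mem_ball.1 hv
          linarith
        have h3 := MF.norm_fderiv_le_of_ball (half_pos hr) ((hmd τ.1).mono h2)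
          fun u hu => hmb τ.1 hτ1 u (h2 hu)
        have h4 := (fderiv ℂ (minor τ.1 h) v).le_opNorm (bs b)
        rw [norm_bs, mul_one] at h4
        simp only [fr, Fin.cons_zero]
        linarith [h4.trans h3]
    · unfold jr
      refine Fin.cases ?_ (fun b => ?_) k
      · rw [Fin.cons_zero]
        simp only [om, fr, Fin.cons_succ, Nat.cast_zero, zero_mul, norm_zero]
        exact hB₁0
      · rw [Fin.cons_succ]
        have h3 : HasFDerivAt (fun u => τ.1 a (h u)) ((τ.1 a).comp (fderiv ℂ h v)) v :=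
          (τ.1 a).hasFDerivAt.comp v ((han v hv').differentiableAt (by simp)).hasFDerivAt
        simp only [fr, Fin.cons_succ]
        rw [h3.fderiv, ContinuousLinearMap.comp_apply]
        have h4 := hent (τ.1 a) (hτ1 a) v hv' b
        linarith
  · have h2 := hmb (Function.update (τ.2 i) (i₀ i) (cL e s)) (fun a => by
      by_cases ha : a = i₀ i
      · subst ha
        rw [Function.update_self]
        exact hc
      · rw [Function.update_of_ne ha]
        exact hτ2 i a) v (hsub hv)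
    linarith
  · exact Finset.single_le_sum (f := K₁) (fun i _ => hK₁0 i) (Finset.mem_univ i)

omit [FiniteDimensional ℂ V] in
theorem norm_tcomp_le {τ : Tp d g V} {C : V →L[ℂ] V} (hC : ‖C‖ ≤ 1) : ‖tcomp τ C‖ ≤ ‖τ‖ := by
  have h1 : ∀ l : V →L[ℂ] ℂ, ‖l.comp C‖ ≤ ‖l‖ := fun l =>
    (l.opNorm_comp_le C).trans (mul_le_of_le_one_right (norm_nonneg _) hC)
  refine max_le ?_ ?_
  · refine (pi_norm_le_iff_of_nonneg (norm_nonneg _)).2 fun a => ?_
    exact (h1 _).trans ((norm_le_pi_norm τ.1 a).trans (norm_fst_le τ))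
  · refine (pi_norm_le_iff_of_nonneg (norm_nonneg _)).2 fun i =>
      (pi_norm_le_iff_of_nonneg (norm_nonneg _)).2 fun a => ?_
    exact (h1 _).trans (((norm_le_pi_norm (τ.2 i) a).trans (norm_le_pi_norm τ.2 i)).trans
      (norm_snd_le τ))

theorem KK_congr {τ : Tp d g V} {h h' : (Fin d → ℂ) → V} {v : Fin d → ℂ} (hh : h =ᶠ[𝓝 v] h') :
    KK e i₀ l τ h v = KK e i₀ l τ h' v := by
  have hm : ∀ m, minor m h =ᶠ[𝓝 v] minor m h' := by
    intro m
    filter_upwards [eventually_eventually_nhds.2 hh] with u hu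
    exact minor_congr m hu
  have hfr : ∀ j, fr τ.1 h j =ᶠ[𝓝 v] fr τ.1 h' j := by
    intro j
    refine Fin.cases ?_ (fun b => ?_) j
    · exact hm _
    · filter_upwards [hh] with u hu
      show τ.1 b (h u) = τ.1 b (h' u)
      rw [hu]
  unfold KK
  congr 1
  ext i s
  exact (wd_congr hfr (hm _) (l i)).self_of_nhds

theorem tm_transf {τ : Tp d g V} {k D : ℕ} {Ψ : ((Fin d → ℂ) → V) → (Fin d → ℂ) → ℂ}
    (hΨ : IsHP D Ψ) {h h' : (Fin d → ℂ) → V} {φ : (Fin d → ℂ) → (Fin d → ℂ)}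
    {v : Fin d → ℂ} (c : V) (hφ : ContDiffAt ℂ ω φ v) (hφ0 : (fderiv ℂ φ v).det ≠ 0)
    (hh : ContDiffAt ℂ ω h (φ v)) (hh' : h' =ᶠ[𝓝 v] fun u => h (φ u) + c)
    (ht : ∀ m, minor m h' =ᶠ[𝓝 v] fun u => (fderiv ℂ φ u).det * minor m h (φ u)) :
    tm e i₀ l τ k Ψ h' v = (fderiv ℂ φ v).det ^ (k * nk l + D) * tm e i₀ l τ k Ψ h (φ v) := by
  unfold tm
  rw [KK_transf τ c hφ hφ0 hh hh' ht,
    hΨ.scale h h' (φ v) v _ fun m => (ht m).self_of_nhds, mul_pow, ← pow_mul,
    mul_comm (nk l) k, pow_add]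
  ring

/-- **U1a** -/
theorem tmStmt : TmStmt := by
  intro d g V _ _ _ e i₀ l τ k D Ψ hΨ
  refine ⟨fun h h' v hh => ?_, fun h φ v hφ hφ0 hh => ?_, fun h v c hh => ?_,
    fun B x₀ hB => ?_, fun r R hr hR => ?_⟩
  · unfold tm
    rw [KK_congr hh, hΨ.scale h' h v v 1 fun m => by rw [one_mul]; exact minor_congr m hh,
      one_pow, one_mul]
  · refine tm_transf hΨ 0 hφ hφ0 hh (Eventually.of_forall fun u => (add_zero _).symm)
      fun m => ?_
    filter_upwards [hφ.eventually (by simp),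
      hφ.continuousAt.eventually (hh.eventually (by simp))] with u h1 h2
    exact minor_comp m (h2.differentiableAt (by simp)) (h1.differentiableAt (by simp))
  · have hid : ContDiffAt ℂ ω (fun u : Fin d → ℂ => u) v := contDiffAt_id
    have hdet : ∀ v, (fderiv ℂ (fun u : Fin d → ℂ => u) v).det = 1 := fun v => by
      rw [fderiv_fun_id]
      exact LinearMap.det_id
    have h1 := tm_transf (e := e) (i₀ := i₀) (l := l) (τ := τ) (k := k) hΨ
      (h' := fun u => h u + c) (h := h) (φ := fun u => u) c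
      hid (by rw [hdet]; exact one_ne_zero) hh (Eventually.of_forall fun u => rfl) (fun m => by
        filter_upwards [hh.eventually (by simp)] with u hu
        have := minor_map m (hu.differentiableAt (n := ω) (by simp)) (ContinuousLinearMap.id ℂ V) c
        rw [hdet, one_mul]
        exact this)
    rw [h1, hdet, one_pow, one_mul]
  · exact ((KK_joint (τ := fun _ => τ) contDiffAt_const hB).pow k).mul (hΨ.joint B x₀ hB)
  · obtain ⟨K₁, hK₁0, hK₁⟩ := KK_bound (R₀ := ‖τ‖) hr hR e i₀ l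
    obtain ⟨B₀, hB₀0, hB₀⟩ := det_bound (k := d) hR
    obtain ⟨K₂, hK₂0, hK₂⟩ := hΨ.bdd B₀
    refine ⟨K₁ ^ k * K₂, by positivity, fun C hC h v₀ hh hb => ?_⟩
    have : CompleteSpace V := FiniteDimensional.complete ℂ V
    have hv₀ : v₀ ∈ ball v₀ r := mem_ball_self hr
    have han : ContDiffAt ℂ ω h v₀ :=
      (MF.analyticAt_of_differentiableOn isOpen_ball hh hv₀).contDiffAt
    unfold tm
    rw [KK_map τ han C, norm_mul, norm_pow, norm_mul]
    have h1 := hK₁ (tcomp τ C) (norm_tcomp_le hC) h v₀ hh hb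
    have h2 := hK₂ (fun u => C (h u)) v₀ fun m hm =>
      minor_contr (han.differentiableAt (by simp)) (fun m hm => by
        rw [minor_eq]
        refine hB₀ _ fun a b => ?_
        have h3 := (m a).le_opNorm (fderiv ℂ h v₀ (bs b))
        have h4 := (fderiv ℂ h v₀).le_opNorm (bs b)
        rw [norm_bs, mul_one] at h4
        have h5 : ‖fderiv ℂ h v₀ (bs b)‖ ≤ R := h4.trans (hb v₀ hv₀)
        calc ‖(m a) (fderiv ℂ h v₀ (bs b))‖ ≤ ‖m a‖ * ‖fderiv ℂ h v₀ (bs b)‖ := h3
          _ ≤ 1 * R := by gcongr; exact hm a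
          _ = R := one_mul R) hC m hm
    calc (‖C.det‖ * ‖KK e i₀ l (tcomp τ C) h v₀‖) ^ k * ‖Ψ (fun u => C (h u)) v₀‖
        ≤ (‖C.det‖ * K₁) ^ k * K₂ := by gcongr
      _ = K₁ ^ k * K₂ * ‖C.det‖ ^ k := by ring

end KK

end Vale.Agent.P281.H125.U
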